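import Vale.Agent.Lib.P331.Events
namespace Vale.Agent.Lib.P331
open Finset
noncomputable section
open Classical
variable {E : Type} [Fintype E] [DecidableEq E]

/-- Dyadic levels below `T`: a real `x ≤ T` is at most `T / 2 ^ J` plus the levels
`T / 2 ^ j`, `1 ≤ j ≤ J`, that lie below `x`. -/
theorem helper71_level_below (T x : ℝ) (hT : 0 ≤ T) (J : ℕ) (hxT : x ≤ T) :
    x ≤ T / 2 ^ J + ∑ j ∈ Finset.Icc 1 J, (if T / 2 ^ j ≤ x then T / 2 ^ j else 0) := by
  induction J with
  | zero => simpa using hxT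
  | succ J ih =>
    rw [Finset.sum_Icc_succ_top (by omega)]
    have h2 : T / 2 ^ (J + 1) + T / 2 ^ (J + 1) = T / 2 ^ J := by
      rw [pow_succ]
      field_simp
      ring
    by_cases h : T / 2 ^ (J + 1) ≤ x
    · rw [if_pos h]
      linarith
    · rw [if_neg h]
      have hnn : 0 ≤ ∑ j ∈ Finset.Icc 1 J, (if T / 2 ^ j ≤ x then T / 2 ^ j else 0) :=
        Finset.sum_nonneg fun j _ => by
          split_ifs
          exacts [div_nonneg hT (by positivity), le_rfl]
      have h' : x < T / 2 ^ (J + 1) := not_le.1 h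
      linarith

/-- The pointwise level inequality for one value `x`. -/
theorem helper71_level_point (T x : ℝ) (hT : 0 ≤ T) (J : ℕ) :
    x ≤ T / 2 ^ J + ∑ j ∈ Finset.Icc 1 J, (if T / 2 ^ j ≤ x then T / 2 ^ j else 0)
      + (if T < x then x else 0) := by
  have hnn : 0 ≤ ∑ j ∈ Finset.Icc 1 J, (if T / 2 ^ j ≤ x then T / 2 ^ j else 0) :=
    Finset.sum_nonneg fun j _ => by
      split_ifs
      exacts [div_nonneg hT (by positivity), le_rfl]
  by_cases h : T < x
  · rw [if_pos h]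
    have h0 : 0 ≤ T / 2 ^ J := div_nonneg hT (by positivity)
    linarith
  · rw [if_neg h, add_zero]
    exact helper71_level_below T x hT J (not_lt.1 h)

theorem level_ineq (M : Matroid E) (k J : ℕ) (hkJ : k ≤ 2 ^ J) (I : Finset E)
    (hI : M.Indep (I : Set E)) (hIk : I.card ≤ k) (V : E → ℝ) (hV : ∀ e, 0 ≤ V e) (T : ℝ)
    (hT : 0 ≤ T) :
    ∑ e ∈ I, V e ≤ T
      + ∑ j ∈ Finset.Icc 1 J, T / 2 ^ j * ((I.filter fun e => T / 2 ^ j ≤ V e).card : ℝ)
      + ∑ e ∈ NL M, (if T < V e then V e else 0) := by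
  have hsub : I ⊆ NL M := by
    intro e he
    unfold NL
    rw [Finset.mem_filter]
    exact ⟨Finset.mem_univ e, hI.subset (by simpa using he)⟩
  have h1 : ∑ e ∈ I, V e ≤ ∑ e ∈ I, (T / 2 ^ J
      + ∑ j ∈ Finset.Icc 1 J, (if T / 2 ^ j ≤ V e then T / 2 ^ j else 0)
      + (if T < V e then V e else 0)) :=
    Finset.sum_le_sum fun e _ => helper71_level_point T (V e) hT J
  have h2 : ∑ e ∈ I, (T / 2 ^ J
      + ∑ j ∈ Finset.Icc 1 J, (if T / 2 ^ j ≤ V e then T / 2 ^ j else 0)
      + (if T < V e then V e else 0))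
      = (I.card : ℝ) * (T / 2 ^ J)
        + ∑ j ∈ Finset.Icc 1 J, T / 2 ^ j * ((I.filter fun e => T / 2 ^ j ≤ V e).card : ℝ)
        + ∑ e ∈ I, (if T < V e then V e else 0) := by
    rw [Finset.sum_add_distrib, Finset.sum_add_distrib, Finset.sum_const, nsmul_eq_mul,
      Finset.sum_comm]
    congr 2
    apply Finset.sum_congr rfl
    intro j _
    rw [Finset.card_filter]
    push_cast
    rw [Finset.mul_sum]
    apply Finset.sum_congr rfl
    intro e _
    split_ifs <;> simp
  have h3 : (I.card : ℝ) * (T / 2 ^ J) ≤ T := by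
    have hc : (I.card : ℝ) ≤ 2 ^ J := by exact_mod_cast hIk.trans hkJ
    have h2J : (0 : ℝ) < 2 ^ J := by positivity
    calc (I.card : ℝ) * (T / 2 ^ J) ≤ 2 ^ J * (T / 2 ^ J) :=
          mul_le_mul_of_nonneg_right hc (div_nonneg hT h2J.le)
      _ = T := by field_simp
  have h4 : ∑ e ∈ I, (if T < V e then V e else 0)
      ≤ ∑ e ∈ NL M, (if T < V e then V e else 0) :=
    Finset.sum_le_sum_of_subset_of_nonneg hsub fun e _ _ => by
      split_ifs
      exacts [hV e, le_rfl]
  linarith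

end
end Vale.Agent.Lib.P331
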