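import Vale.Agent.Lib.P331.Basic
namespace Vale.Agent.Lib.P331
open Finset
noncomputable section
open Classical
variable {E : Type} [Fintype E] [DecidableEq E]

/-- Weighted double sum of a function of the sample values and of the values. -/
def helper71_Ex {Ω : Type} [Fintype Ω] (p val : E → Ω → ℝ)
    (G : (E → ℝ) → (E → ℝ) → ℝ) : ℝ :=
  ∑ s : E → Ω, ∑ v : E → Ω, wt p s * wt p v * G (vals val s) (vals val v)

theorem helper71_Ex_mono {Ω : Type} [Fintype Ω] (p val : E → Ω → ℝ)
    (hp : ∀ e ω, 0 ≤ p e ω) (hval : ∀ e ω, 0 ≤ val e ω) (G G' : (E → ℝ) → (E → ℝ) → ℝ)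
    (h : ∀ S V : E → ℝ, (∀ e, 0 ≤ S e) → (∀ e, 0 ≤ V e) → G S V ≤ G' S V) :
    helper71_Ex p val G ≤ helper71_Ex p val G' := by
  unfold helper71_Ex
  apply Finset.sum_le_sum
  intro s _
  apply Finset.sum_le_sum
  intro v _
  apply mul_le_mul_of_nonneg_left
  · exact h _ _ (fun e => hval e (s e)) (fun e => hval e (v e))
  · exact mul_nonneg (wt_nonneg p hp s) (wt_nonneg p hp v)

theorem helper71_Ex_add {Ω : Type} [Fintype Ω] (p val : E → Ω → ℝ)
    (G G' : (E → ℝ) → (E → ℝ) → ℝ) :
    helper71_Ex p val (fun S V => G S V + G' S V)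
      = helper71_Ex p val G + helper71_Ex p val G' := by
  unfold helper71_Ex
  simp only [mul_add, Finset.sum_add_distrib]

theorem helper71_Ex_sum {Ω : Type} [Fintype Ω] (p val : E → Ω → ℝ) {ι : Type} (A : Finset ι)
    (G : ι → (E → ℝ) → (E → ℝ) → ℝ) :
    helper71_Ex p val (fun S V => ∑ i ∈ A, G i S V) = ∑ i ∈ A, helper71_Ex p val (G i) := by
  induction A using Finset.induction_on with
  | empty => simp [helper71_Ex]
  | insert a A ha ih =>
    simp only [Finset.sum_insert ha]
    rw [helper71_Ex_add, ih]

theorem helper71_vals_update {Ω : Type} (val : E → Ω → ℝ) (s : E → Ω) (e : E) (ω : Ω) :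
    vals val (Function.update s e ω) = Function.update (vals val s) e (val e ω) := by
  funext f
  unfold vals
  by_cases hf : f = e
  · subst hf
    simp
  · simp [Function.update_of_ne hf]

theorem helper71_Ex_swap {Ω : Type} [Fintype Ω] (p val : E → Ω → ℝ)
    (G : (E → ℝ) → (E → ℝ) → ℝ) (e : E) :
    helper71_Ex p val G = helper71_Ex p val
      (fun S V => G (Function.update S e (V e)) (Function.update V e (S e))) := by
  unfold helper71_Ex
  rw [sum_swap p (fun s v => G (vals val s) (vals val v)) e]
  apply Finset.sum_congr rfl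
  intro s _
  apply Finset.sum_congr rfl
  intro v _
  rw [helper71_vals_update, helper71_vals_update]
  rfl

/-- `e` carries the strictly largest value among the non-loops, above all samples. -/
def helper71_Q (M : Matroid E) (e : E) (S V : E → ℝ) : Prop :=
  (∀ f ∈ NL M, f ≠ e → S f ≤ V e) ∧ S e < V e ∧ (∀ f ∈ NL M, f ≠ e → V f < V e)

/-- All other non-loop values are at most the top sample. -/
def helper71_Good (M : Matroid E) (e : E) (S V : E → ℝ) : Prop :=
  ∀ g ∈ NL M, g ≠ e → V g ≤ topS M S

def helper71_Bad (M : Matroid E) (e g : E) (S V : E → ℝ) : Prop :=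
  helper71_Q M e S V ∧ topS M S < V g ∧ ∀ h ∈ NL M, h ≠ e → V h ≤ V g

def helper71_Ustr (M : Matroid E) (g : E) (S : E → ℝ) : Prop :=
  ∀ f ∈ NL M, f ≠ g → S f < S g

def helper71_hF (M : Matroid E) (e : E) (S V : E → ℝ) : ℝ :=
  if (∀ f ∈ NL M, f ≠ e → S f ≤ S e) ∧ (∀ f ∈ NL M, V f < S e) then S e else 0

theorem helper71_step1 (M : Matroid E) (S V : E → ℝ) (hS : ∀ e, 0 ≤ S e) :
    topS M S ≤ E0 M S V + ∑ e ∈ NL M, helper71_hF M e S V := by
  have hnn : ∀ e ∈ NL M, 0 ≤ helper71_hF M e S V := by
    intro e _
    unfold helper71_hF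
    split_ifs
    exacts [hS e, le_rfl]
  have hsum : 0 ≤ ∑ e ∈ NL M, helper71_hF M e S V := Finset.sum_nonneg hnn
  by_cases h : ∃ e ∈ NL M, topS M S ≤ V e
  · have hE0 : E0 M S V = topS M S := by
      unfold E0
      rw [if_pos h]
    linarith
  · have hE0 : E0 M S V = 0 := by
      unfold E0
      rw [if_neg h]
    have h' : ∀ e ∈ NL M, V e < topS M S := fun e he => not_le.1 (fun hle => h ⟨e, he, hle⟩)
    by_cases hne : (NL M).Nonempty
    · obtain ⟨e, he, hSe⟩ := exists_eq_topS M S hS hne
      have hcond : (∀ f ∈ NL M, f ≠ e → S f ≤ S e) ∧ (∀ f ∈ NL M, V f < S e) :=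
        ⟨fun f hf _ => by rw [hSe]; exact le_topS M S hf, fun f hf => by rw [hSe]; exact h' f hf⟩
      have hterm : helper71_hF M e S V = topS M S := by
        unfold helper71_hF
        rw [if_pos hcond, hSe]
      have h1 := Finset.single_le_sum hnn he
      linarith
    · rw [Finset.not_nonempty_iff_eq_empty] at hne
      have h0 := topS_eq_zero M S hne
      linarith

theorem helper71_step2 (M : Matroid E) (e : E) (he : e ∈ NL M) (S V : E → ℝ) :
    helper71_hF M e (Function.update S e (V e)) (Function.update V e (S e))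
      = if helper71_Q M e S V then V e else 0 := by
  have hiff : ((∀ f ∈ NL M, f ≠ e →
        Function.update S e (V e) f ≤ Function.update S e (V e) e) ∧
      (∀ f ∈ NL M, Function.update V e (S e) f < Function.update S e (V e) e))
        ↔ helper71_Q M e S V := by
    unfold helper71_Q
    simp only [Function.update_self]
    constructor
    · rintro ⟨h1, h2⟩
      refine ⟨fun f hf hfe => ?_, ?_, fun f hf hfe => ?_⟩
      · have h3 := h1 f hf hfe
        rwa [Function.update_of_ne hfe] at h3
      · have h3 := h2 e he
        rwa [Function.update_self] at h3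
      · have h3 := h2 f hf
        rwa [Function.update_of_ne hfe] at h3
    · rintro ⟨h1, h2, h3⟩
      refine ⟨fun f hf hfe => ?_, fun f hf => ?_⟩
      · rw [Function.update_of_ne hfe]
        exact h1 f hf hfe
      · by_cases hfe : f = e
        · rw [hfe, Function.update_self]
          exact h2
        · rw [Function.update_of_ne hfe]
          exact h3 f hf hfe
  unfold helper71_hF
  by_cases hQ : helper71_Q M e S V
  · rw [if_pos (hiff.2 hQ), if_pos hQ, Function.update_self]
  · rw [if_neg (fun h => hQ (hiff.1 h)), if_neg hQ]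

theorem helper71_step3 (M : Matroid E) (e : E) (S V : E → ℝ) (hV : ∀ e, 0 ≤ V e) :
    (if helper71_Q M e S V ∧ ¬ helper71_Good M e S V then V e else 0)
      ≤ ∑ g ∈ (NL M).erase e, (if helper71_Bad M e g S V then V e else 0) := by
  have hnn : ∀ g ∈ (NL M).erase e, 0 ≤ (if helper71_Bad M e g S V then V e else 0) := by
    intro g _
    split_ifs
    exacts [hV e, le_rfl]
  by_cases hc : helper71_Q M e S V ∧ ¬ helper71_Good M e S V
  · rw [if_pos hc]
    obtain ⟨hQ, hG⟩ := hc
    have hG' : ∃ g0 ∈ NL M, g0 ≠ e ∧ topS M S < V g0 := by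
      by_contra hcon
      apply hG
      intro g hg hge
      by_contra hlt
      exact hcon ⟨g, hg, hge, not_le.1 hlt⟩
    obtain ⟨g0, hg0, hg0e, hg0T⟩ := hG'
    have hg0mem : g0 ∈ (NL M).erase e := Finset.mem_erase.2 ⟨hg0e, hg0⟩
    obtain ⟨g, hg, hmax⟩ := Finset.exists_max_image ((NL M).erase e) V ⟨g0, hg0mem⟩
    have hBad : helper71_Bad M e g S V :=
      ⟨hQ, lt_of_lt_of_le hg0T (hmax g0 hg0mem),
        fun h hh hhe => hmax h (Finset.mem_erase.2 ⟨hhe, hh⟩)⟩
    have h1 := Finset.single_le_sum hnn hg
    rw [if_pos hBad] at h1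
    exact h1
  · rw [if_neg hc]
    exact Finset.sum_nonneg hnn

theorem helper71_step4 (M : Matroid E) (e g : E) (hg : g ∈ NL M) (hge : g ≠ e)
    (S V : E → ℝ) (hS : ∀ e, 0 ≤ S e)
    (hBad : helper71_Bad M e g (Function.update S g (V g)) (Function.update V g (S g))) :
    helper71_Q M e S V ∧ helper71_Good M e S V ∧ helper71_Ustr M g S := by
  obtain ⟨⟨q1, q2, q3⟩, hT, hmax⟩ := hBad
  have heg : e ≠ g := fun h => hge h.symm
  have hVe : Function.update V g (S g) e = V e := Function.update_of_ne heg _ _
  have hSe : Function.update S g (V g) e = S e := Function.update_of_ne heg _ _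
  have hVg' : Function.update V g (S g) g = S g := Function.update_self _ _ _
  simp only [hVe, hSe, hVg'] at q1 q2 q3 hT hmax
  have hVg : V g < S g := by
    have h1 := le_topS M (Function.update S g (V g)) hg
    rw [Function.update_self] at h1
    linarith
  have hU : ∀ f ∈ NL M, f ≠ g → S f < S g := by
    intro f hf hfg
    have h1 := le_topS M (Function.update S g (V g)) hf
    rw [Function.update_of_ne hfg] at h1
    linarith
  have hTS : topS M S = S g := by
    apply le_antisymm
    · apply topS_le M S (hS g)
      intro f hf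
      by_cases hfg : f = g
      · rw [hfg]
      · exact (hU f hf hfg).le
    · exact le_topS M S hg
  have hSgVe : S g < V e := by
    have h1 := q3 g hg hge
    rwa [Function.update_self] at h1
  refine ⟨⟨fun f hf hfe => ?_, q2, fun f hf hfe => ?_⟩, fun h hh hhe => ?_, hU⟩
  · by_cases hfg : f = g
    · rw [hfg]
      exact hSgVe.le
    · have h1 := q1 f hf hfe
      rwa [Function.update_of_ne hfg] at h1
  · by_cases hfg : f = g
    · rw [hfg]
      linarith
    · have h1 := q3 f hf hfe
      rwa [Function.update_of_ne hfg] at h1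
  · rw [hTS]
    by_cases hhg : h = g
    · rw [hhg]
      exact hVg.le
    · have h1 := hmax h hh hhe
      rwa [Function.update_of_ne hhg] at h1

theorem helper71_step5 (M : Matroid E) (e : E) (S V : E → ℝ) (hV : ∀ e, 0 ≤ V e) :
    ∑ g ∈ (NL M).erase e,
        (if helper71_Q M e S V ∧ helper71_Good M e S V ∧ helper71_Ustr M g S then V e else 0)
      ≤ (if helper71_Q M e S V ∧ helper71_Good M e S V then V e else 0) := by
  by_cases hQG : helper71_Q M e S V ∧ helper71_Good M e S V
  · rw [if_pos hQG]
    by_cases hex : ∃ g ∈ (NL M).erase e, helper71_Ustr M g S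
    · obtain ⟨g, hg, hU⟩ := hex
      have hc3 : helper71_Q M e S V ∧ helper71_Good M e S V ∧ helper71_Ustr M g S :=
        ⟨hQG.1, hQG.2, hU⟩
      rw [Finset.sum_eq_single_of_mem g hg, if_pos hc3]
      intro g' hg' hne
      rw [if_neg]
      rintro ⟨_, _, hU'⟩
      have h1 := hU g' (Finset.mem_of_mem_erase hg') hne
      have h2 := hU' g (Finset.mem_of_mem_erase hg) (Ne.symm hne)
      linarith
    · have hz : ∑ g ∈ (NL M).erase e,
          (if helper71_Q M e S V ∧ helper71_Good M e S V ∧ helper71_Ustr M g S then V e else 0)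
            = 0 := by
        apply Finset.sum_eq_zero
        intro g hg
        rw [if_neg]
        rintro ⟨_, _, hU⟩
        exact hex ⟨g, hg, hU⟩
      rw [hz]
      exact hV e
  · rw [if_neg hQG]
    apply le_of_eq
    apply Finset.sum_eq_zero
    intro g _
    rw [if_neg]
    rintro ⟨h1, h2, _⟩
    exact hQG ⟨h1, h2⟩

theorem helper71_step6 (M : Matroid E) (S V : E → ℝ) (hV : ∀ e, 0 ≤ V e) :
    ∑ e ∈ NL M, (if helper71_Q M e S V ∧ helper71_Good M e S V then V e else 0)
      ≤ E0 M S V + EA M S V := by
  have hE0 : 0 ≤ E0 M S V := by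
    unfold E0
    split_ifs
    exacts [topS_nonneg M S, le_rfl]
  have hEA : 0 ≤ EA M S V := by
    unfold EA
    apply Finset.sum_nonneg
    intro e _
    split_ifs
    exacts [hV e, le_rfl]
  by_cases hex : ∃ e ∈ NL M, helper71_Q M e S V ∧ helper71_Good M e S V
  · obtain ⟨e, he, hQ, hG⟩ := hex
    have hc : helper71_Q M e S V ∧ helper71_Good M e S V := ⟨hQ, hG⟩
    rw [Finset.sum_eq_single_of_mem e he, if_pos hc]
    · obtain ⟨q1, q2, q3⟩ := hQ
      have hTle : topS M S ≤ V e := by
        apply topS_le M S (hV e)
        intro f hf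
        by_cases hfe : f = e
        · rw [hfe]
          exact q2.le
        · exact q1 f hf hfe
      rcases eq_or_lt_of_le hTle with heq | hlt
      · have h1 : E0 M S V = topS M S := by
          unfold E0
          rw [if_pos ⟨e, he, hTle⟩]
        linarith
      · have hcond : topS M S < V e ∧ ∀ e' ∈ NL M, e' ≠ e → V e' ≤ topS M S := ⟨hlt, hG⟩
        have hterm : V e ≤ EA M S V := by
          unfold EA
          refine le_trans (le_of_eq ?_) (Finset.single_le_sum (fun e' _ => ?_) he)
          · rw [if_pos hcond]
          · split_ifs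
            exacts [hV e', le_rfl]
        linarith
    · intro e' he' hne
      rw [if_neg]
      rintro ⟨⟨_, _, q3'⟩, _⟩
      have h1 := hQ.2.2 e' he' hne
      have h2 := q3' e he (Ne.symm hne)
      linarith
  · have hz : ∑ e ∈ NL M, (if helper71_Q M e S V ∧ helper71_Good M e S V then V e else 0)
        = 0 := by
      apply Finset.sum_eq_zero
      intro e he
      rw [if_neg]
      intro h
      exact hex ⟨e, he, h⟩
    linarith

theorem helper71_QnotGood_le {Ω : Type} [Fintype Ω] (M : Matroid E) (p val : E → Ω → ℝ)
    (hp : ∀ e ω, 0 ≤ p e ω) (hval : ∀ e ω, 0 ≤ val e ω) (e : E) :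
    helper71_Ex p val
        (fun S V => if helper71_Q M e S V ∧ ¬ helper71_Good M e S V then V e else 0)
      ≤ helper71_Ex p val
        (fun S V => if helper71_Q M e S V ∧ helper71_Good M e S V then V e else 0) := by
  calc helper71_Ex p val
        (fun S V => if helper71_Q M e S V ∧ ¬ helper71_Good M e S V then V e else 0)
      ≤ helper71_Ex p val (fun S V => ∑ g ∈ (NL M).erase e,
          (if helper71_Bad M e g S V then V e else 0)) :=
        helper71_Ex_mono p val hp hval _ _ (fun S V _ hV => helper71_step3 M e S V hV)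
    _ = ∑ g ∈ (NL M).erase e, helper71_Ex p val
          (fun S V => if helper71_Bad M e g S V then V e else 0) :=
        helper71_Ex_sum p val ((NL M).erase e)
          (fun g S V => if helper71_Bad M e g S V then V e else 0)
    _ ≤ ∑ g ∈ (NL M).erase e, helper71_Ex p val (fun S V =>
          if helper71_Q M e S V ∧ helper71_Good M e S V ∧ helper71_Ustr M g S
            then V e else 0) := by
        apply Finset.sum_le_sum
        intro g hg
        have hgNL : g ∈ NL M := Finset.mem_of_mem_erase hg
        have hge : g ≠ e := Finset.ne_of_mem_erase hg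
        rw [helper71_Ex_swap p val (fun S V => if helper71_Bad M e g S V then V e else 0) g]
        apply helper71_Ex_mono p val hp hval
        intro S V hS hV
        show (if helper71_Bad M e g (Function.update S g (V g)) (Function.update V g (S g))
            then (Function.update V g (S g)) e else 0)
          ≤ (if helper71_Q M e S V ∧ helper71_Good M e S V ∧ helper71_Ustr M g S
            then V e else 0)
        by_cases hB : helper71_Bad M e g (Function.update S g (V g)) (Function.update V g (S g))
        · have h4 := helper71_step4 M e g hgNL hge S V hS hB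
          rw [if_pos hB, if_pos h4, Function.update_of_ne (Ne.symm hge)]
        · rw [if_neg hB]
          split_ifs
          exacts [hV e, le_rfl]
    _ = helper71_Ex p val (fun S V => ∑ g ∈ (NL M).erase e,
          (if helper71_Q M e S V ∧ helper71_Good M e S V ∧ helper71_Ustr M g S
            then V e else 0)) :=
        (helper71_Ex_sum p val ((NL M).erase e)
          (fun g S V => if helper71_Q M e S V ∧ helper71_Good M e S V ∧ helper71_Ustr M g S
            then V e else 0)).symm
    _ ≤ helper71_Ex p val
          (fun S V => if helper71_Q M e S V ∧ helper71_Good M e S V then V e else 0) :=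
        helper71_Ex_mono p val hp hval _ _ (fun S V _ hV => helper71_step5 M e S V hV)

theorem helper71_Q_le {Ω : Type} [Fintype Ω] (M : Matroid E) (p val : E → Ω → ℝ)
    (hp : ∀ e ω, 0 ≤ p e ω) (hval : ∀ e ω, 0 ≤ val e ω) (e : E) :
    helper71_Ex p val (fun S V => if helper71_Q M e S V then V e else 0)
      ≤ 2 * helper71_Ex p val
        (fun S V => if helper71_Q M e S V ∧ helper71_Good M e S V then V e else 0) := by
  have h1 : helper71_Ex p val (fun S V => if helper71_Q M e S V then V e else 0)
      ≤ helper71_Ex p val (fun S V =>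
          (if helper71_Q M e S V ∧ helper71_Good M e S V then V e else 0)
          + (if helper71_Q M e S V ∧ ¬ helper71_Good M e S V then V e else 0)) := by
    apply helper71_Ex_mono p val hp hval
    intro S V _ _
    show (if helper71_Q M e S V then V e else 0)
      ≤ (if helper71_Q M e S V ∧ helper71_Good M e S V then V e else 0)
        + (if helper71_Q M e S V ∧ ¬ helper71_Good M e S V then V e else 0)
    by_cases hQ : helper71_Q M e S V
    · by_cases hG : helper71_Good M e S V
      · have hc : helper71_Q M e S V ∧ helper71_Good M e S V := ⟨hQ, hG⟩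
        have hn : ¬ (helper71_Q M e S V ∧ ¬ helper71_Good M e S V) := fun h => h.2 hG
        rw [if_pos hQ, if_pos hc, if_neg hn]
        linarith
      · have hc : helper71_Q M e S V ∧ ¬ helper71_Good M e S V := ⟨hQ, hG⟩
        have hn : ¬ (helper71_Q M e S V ∧ helper71_Good M e S V) := fun h => hG h.2
        rw [if_pos hQ, if_pos hc, if_neg hn]
        linarith
    · have hn1 : ¬ (helper71_Q M e S V ∧ helper71_Good M e S V) := fun h => hQ h.1
      have hn2 : ¬ (helper71_Q M e S V ∧ ¬ helper71_Good M e S V) := fun h => hQ h.1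
      rw [if_neg hQ, if_neg hn1, if_neg hn2]
      linarith
  rw [helper71_Ex_add] at h1
  have h2 := helper71_QnotGood_le M p val hp hval e
  linarith

theorem exp_T_le (M : Matroid E) {Ω : Type} [Fintype Ω] (p val : E → Ω → ℝ)
    (hp : ∀ e ω, 0 ≤ p e ω) (hval : ∀ e ω, 0 ≤ val e ω) :
    ∑ s : E → Ω, ∑ v : E → Ω, wt p s * wt p v * topS M (vals val s)
      ≤ 3 * ∑ s : E → Ω, ∑ v : E → Ω, wt p s * wt p v * E0 M (vals val s) (vals val v)
        + 2 * ∑ s : E → Ω, ∑ v : E → Ω, wt p s * wt p v * EA M (vals val s) (vals val v) := by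
  have hA : helper71_Ex p val (fun S _ => topS M S)
      ≤ helper71_Ex p val (fun S V => E0 M S V)
        + ∑ e ∈ NL M, helper71_Ex p val (helper71_hF M e) := by
    calc helper71_Ex p val (fun S _ => topS M S)
        ≤ helper71_Ex p val (fun S V => E0 M S V + ∑ e ∈ NL M, helper71_hF M e S V) :=
          helper71_Ex_mono p val hp hval _ _ (fun S V hS _ => helper71_step1 M S V hS)
      _ = helper71_Ex p val (fun S V => E0 M S V)
            + helper71_Ex p val (fun S V => ∑ e ∈ NL M, helper71_hF M e S V) :=
          helper71_Ex_add p val _ _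
      _ = helper71_Ex p val (fun S V => E0 M S V)
            + ∑ e ∈ NL M, helper71_Ex p val (helper71_hF M e) := by
          rw [helper71_Ex_sum p val (NL M) (fun e => helper71_hF M e)]
  have hB : ∀ e ∈ NL M, helper71_Ex p val (helper71_hF M e)
      ≤ 2 * helper71_Ex p val
        (fun S V => if helper71_Q M e S V ∧ helper71_Good M e S V then V e else 0) := by
    intro e he
    rw [helper71_Ex_swap p val (helper71_hF M e) e]
    have hEq : (fun S V : E → ℝ =>
        helper71_hF M e (Function.update S e (V e)) (Function.update V e (S e)))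
          = (fun S V => if helper71_Q M e S V then V e else 0) := by
      funext S V
      exact helper71_step2 M e he S V
    rw [hEq]
    exact helper71_Q_le M p val hp hval e
  have hD : ∑ e ∈ NL M, helper71_Ex p val (helper71_hF M e)
      ≤ 2 * ∑ e ∈ NL M, helper71_Ex p val
        (fun S V => if helper71_Q M e S V ∧ helper71_Good M e S V then V e else 0) := by
    rw [Finset.mul_sum]
    exact Finset.sum_le_sum hB
  have hC : ∑ e ∈ NL M, helper71_Ex p val
        (fun S V => if helper71_Q M e S V ∧ helper71_Good M e S V then V e else 0)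
      ≤ helper71_Ex p val (fun S V => E0 M S V) + helper71_Ex p val (fun S V => EA M S V) := by
    calc ∑ e ∈ NL M, helper71_Ex p val
          (fun S V => if helper71_Q M e S V ∧ helper71_Good M e S V then V e else 0)
        = helper71_Ex p val (fun S V => ∑ e ∈ NL M,
            (if helper71_Q M e S V ∧ helper71_Good M e S V then V e else 0)) :=
          (helper71_Ex_sum p val (NL M)
            (fun e S V => if helper71_Q M e S V ∧ helper71_Good M e S V then V e else 0)).symm
      _ ≤ helper71_Ex p val (fun S V => E0 M S V + EA M S V) :=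
          helper71_Ex_mono p val hp hval _ _ (fun S V _ hV => helper71_step6 M S V hV)
      _ = helper71_Ex p val (fun S V => E0 M S V) + helper71_Ex p val (fun S V => EA M S V) :=
          helper71_Ex_add p val _ _
  have hfin : helper71_Ex p val (fun S _ => topS M S)
      ≤ 3 * helper71_Ex p val (fun S V => E0 M S V)
        + 2 * helper71_Ex p val (fun S V => EA M S V) := by
    linarith
  exact hfin

end
end Vale.Agent.Lib.P331
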